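import Crest.Agent.N233.PS.Tr
import Crest.Agent.N255.Pt.Dt

/-!
# Row 233 (helper25): the tree of chambers of the subdivided cover, and hyperbolicity

`X` = the cliques of `D.Gt`, chambers = the copies `cp t`, tree = Cayley tree of the free group,
`F` any group with an injective `j : F →* FreeGroup ι` of finite index.
-/

set_option autoImplicit false

noncomputable section

namespace Crest.Agent.N233.Hi

open Crest.GroupTheory Crest.Agent.N255.Ra Crest.Agent.N255.Pt Crest.Agent.N233.Hyp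
  Crest.Agent.N233.PS Relation

/-! ### the action on `W × N` -/

section act

variable {S N Ed F : Type} {Γ : SimpleGraph S} [Group F] [MulAction F N] (ρ : F →* (Γ ≃g Γ))

/-- the action of `W ⋊ F` on the vertices `W × N` -/
@[reducible] def actW : MulAction (W Γ ⋊[autHom ρ] F) (W Γ × N) where
  smul g x := (g.left * autHom ρ g.right x.1, g.right • x.2)
  one_smul x := Prod.ext (by change _ * _ = _; simp) (one_smul F x.2)
  mul_smul g h x := Prod.ext (by change _ * _ = _ * autHom ρ _ (_ * _); simp [mul_assoc])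
    (mul_smul g.right h.right x.2)

attribute [local instance] actW

theorem actW_def (g : W Γ ⋊[autHom ρ] F) (x : W Γ × N) :
    g • x = (g.left * autHom ρ g.right x.1, g.right • x.2) := rfl

variable {src tgt : Ed → N} {T : S → Set N}

theorem actW_inl (hT : ∀ (g : F) s t, t ∈ T s → g • t ∈ T (ρ g s)) (g : W Γ ⋊[autHom ρ] F)
    {x y : W Γ × N} {s : S} (h : mst Γ src tgt T x (.inl s) y) :
    mst Γ src tgt T (g • x) (.inl (ρ g.right s)) (g • y) := by
  obtain ⟨h, rfl⟩ := h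
  exact ⟨hT _ _ _ h, by simp [actW_def, autHom_apply, mul_assoc]⟩

theorem actW_inr {μ : F → Ed → Ed} (h1 : ∀ g e, src (μ g e) = g • src e)
    (h2 : ∀ g e, tgt (μ g e) = g • tgt e) (g : W Γ ⋊[autHom ρ] F)
    {x y : W Γ × N} {e : Ed} (h : mst Γ src tgt T x (.inr e) y) :
    mst Γ src tgt T (g • x) (.inr (μ g.right e)) (g • y) := by
  refine ⟨by simp only [actW_def, h.1], ?_⟩
  rcases h.2 with ⟨a, b⟩ | ⟨a, b⟩ <;> simp only [actW_def, a, b, End, h1, h2]
  exacts [Or.inl ⟨trivial, trivial⟩, Or.inr ⟨trivial, trivial⟩]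

theorem actW_free (hf : ∀ (g : F) (t : N), g • t = t → g = 1) (g : W Γ ⋊[autHom ρ] F)
    (x : W Γ × N) (h : g • x = x) : g = 1 := by
  have h2 := hf _ _ (congrArg Prod.snd h)
  have h1 := congrArg Prod.fst h
  simp only [actW_def, h2, map_one, MulAut.one_apply, mul_eq_right] at h1
  exact SemidirectProduct.ext h1 h2

theorem mst_finite (l1 : ∀ t, {s | t ∈ T s}.Finite) (l2 : ∀ t, {t' | ∃ e, End src tgt e t t'}.Finite)
    (x : W Γ × N) : {y | ∃ a, mst Γ src tgt T x a y}.Finite := by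
  refine (((l1 x.2).image fun s => (x.1 * gen Γ s, x.2)).union
    ((l2 x.2).image fun t => (x.1, t))).subset ?_
  rintro y ⟨s | e', h⟩
  · exact Or.inl ⟨s, h.1, h.2.symm⟩
  · exact Or.inr ⟨y.2, ⟨e', h.2⟩, Prod.ext h.1.symm rfl⟩

theorem actW_cof {B : Set N} (hB : B.Finite) (hD : ∀ t, ∃ g : F, g • t ∈ B) :
    ∃ C : Set (W Γ × N), C.Finite ∧ ∀ x, ∃ g : W Γ ⋊[autHom ρ] F, g • x ∈ C :=
  ⟨_, (Set.finite_singleton 1).prod hB, fun x => by
    obtain ⟨g, hg⟩ := hD x.2
    exact ⟨⟨(autHom ρ g x.1)⁻¹, g⟩, by simpa [actW_def] using hg⟩⟩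

end act

/-- finitely many orbits pass to subgroups of finite index -/
theorem cof_sub {G P : Type*} [Group G] [MulAction G P]
    (h : ∃ C : Set P, C.Finite ∧ ∀ x, ∃ g : G, g • x ∈ C) (H : Subgroup G) [H.FiniteIndex] :
    ∃ C : Set P, C.Finite ∧ ∀ x, ∃ g : H, g • x ∈ C := by
  obtain ⟨C, hC, h⟩ := h
  refine ⟨⋃ q : G ⧸ H, (q.out⁻¹ • ·) '' C, Set.finite_iUnion fun _ => hC.image _, fun x => ?_⟩
  obtain ⟨g, hg⟩ := h x
  obtain ⟨k, hk⟩ := QuotientGroup.mk_out_eq_mul H g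
  refine ⟨k⁻¹, Set.mem_iUnion.2 ⟨(g : G ⧸ H), g • x, hg, ?_⟩⟩
  simp only [hk, smul_smul, mul_inv_rev, inv_mul_cancel_right]
  rfl

/-! ### the Cayley tree -/

variable {ι I Tor K : Type}

/-- the origin of an edge -/
abbrev sr (ι : Type) : FreeGroup ι × ι → FreeGroup ι := fun e => e.1

/-- the end of an edge -/
abbrev tg (ι : Type) : FreeGroup ι × ι → FreeGroup ι := fun e => e.1 * FreeGroup.of e.2

/-- the copies through a vertex -/
def Tc (s : St ι I Tor) : Set (FreeGroup ι) := {t | s ∈ Set.range (cp t)}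

theorem end_x (v : FreeGroup ι) (j : ι × Bool) : End (sr ι) (tg ι) (og v j, j.1) v (v * x j) := by
  obtain ⟨i, _ | _⟩ := j
  · exact Or.inr ⟨by simp [tg, x_false], rfl⟩
  · exact Or.inl ⟨rfl, rfl⟩

theorem End.x {e : FreeGroup ι × ι} {t t' : FreeGroup ι} (h : End (sr ι) (tg ι) e t t') :
    ∃ j, t' = t * x j ∧ e = (og t j, j.1) := by
  rcases h with ⟨rfl, rfl⟩ | ⟨rfl, rfl⟩
  · exact ⟨(e.2, true), rfl, rfl⟩
  · exact ⟨(e.2, false), by simp [x_false], by simp [x_false]⟩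

theorem tc_adj (s : St ι I Tor) : ∀ t ∈ Tc s, ∀ t' ∈ Tc s, t = t' ∨ ∃ e, End (sr ι) (tg ι) e t t' :=
  fun t ht t' ht' => (eq_or_ne t t').imp_right fun e => by
    obtain ⟨j, -, rfl, -⟩ := two_cp ht ht' e.symm
    exact ⟨_, end_x t j⟩

theorem wl_tc {e : FreeGroup ι × ι} {s : St ι I Tor} :
    Wl (sr ι) (tg ι) Tc e s ↔ s ∈ Set.range (wl e.1 e.2) := by
  refine ⟨fun h => ?_, ?_⟩
  · obtain ⟨j, t, e1, rfl⟩ := two_cp h.1 h.2 fun c => x_ne_one (e.2, true) (mul_eq_left.1 c)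
    obtain rfl : (e.2, true) = j := x_injective (mul_left_cancel e1)
    exact ⟨t, rfl⟩
  · rintro ⟨t, rfl⟩
    exact ⟨⟨_, cp_true ..⟩, ⟨_, cp_false ..⟩⟩

theorem wl_disj (e e' : FreeGroup ι × ι) (s : St ι I Tor) (h : Wl (sr ι) (tg ι) Tc e s)
    (h' : Wl (sr ι) (tg ι) Tc e' s) : e = e' := by
  obtain ⟨t, rfl⟩ := wl_tc.1 h
  obtain ⟨t', c⟩ := wl_tc.1 h'
  exact Prod.ext (wl_inj.1 c).1.symm (wl_inj.1 c).2.1.symm

theorem tc_smul (g : FreeGroup ι) (s : St ι I Tor) (t : FreeGroup ι) (h : t ∈ Tc s) :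
    g * t ∈ Tc (g • s) := by
  obtain ⟨a, rfl⟩ := h
  exact ⟨a, (smul_cp ..).symm⟩

theorem tc_finite [Finite ι] [Finite I] [Finite Tor] (t : FreeGroup ι) :
    {s : St ι I Tor | t ∈ Tc s}.Finite := Set.finite_range _

theorem end_finite [Finite ι] (t : FreeGroup ι) : {t' | ∃ e, End (sr ι) (tg ι) e t t'}.Finite :=
  (Set.finite_range fun j => t * x j).subset fun _ ⟨_, h⟩ => (End.x h).imp fun _ h => h.1.symm

theorem fl_eq (D : Dt ι I Tor K) : Fl D.Gt = D.Gt.IsClique := funext fun _ => propext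
  ⟨And.right, fun h => ⟨(cx_clique fun _ => D.card_le_four).finite h, h⟩⟩

variable (D : Dt ι I Tor K) {X : Set (St ι I Tor) → Prop} (hX : ∀ A, X A ↔ D.Gt.IsClique A)
include hX

theorem cxD : Cx X := by
  rw [show X = D.Gt.IsClique from funext fun A => propext (hX A)]
  exact cx_clique fun _ => D.card_le_four

theorem face_smul (g : FreeGroup ι) (A : Set (St ι I Tor)) (h : X A) : X ((g • ·) '' A) := by
  rw [hX] at h ⊢
  rintro _ ⟨a, ha, rfl⟩ _ ⟨b, hb, rfl⟩ e
  exact D.adj_smul' g (h ha hb fun c => e (c ▸ rfl))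

/-- **the tree of chambers** -/
theorem mirD : Mir (ps X) (sr ι) (tg ι) (Ts Tc) :=
  mir_ps (coc_free ι) (conn_free ι) (fun s hs => D.helly ((hX s).1 hs)) tc_adj

theorem nsqD : NoSq (cone (ps X) (sr ι) (tg ι) (Ts Tc)) := noSq_cone_ps (cxD D hX) wl_disj

theorem clbD : ClB (cone (ps X) (sr ι) (tg ι) (Ts Tc)) 5 := clB_cone (clB_ps (cxD D hX))

omit hX in
theorem ts_finite [Finite ι] [Finite I] [Finite Tor] (t : FreeGroup ι) :
    {a : PV X | t ∈ Ts Tc a}.Finite := finite_car_sub (tc_finite t)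

omit hX in
theorem mstD_finite [Finite ι] [Finite I] [Finite Tor] (z : W (ps X) × FreeGroup ι) :
    {y | ∃ a, mst (ps X) (sr ι) (tg ι) (Ts Tc) z a y}.Finite := mst_finite ts_finite end_finite z

omit hX

variable {F : Type} [Group F] (j : F →* FreeGroup ι)

/-- `F` acts on the tree through `j` -/
@[reducible] def actN : MulAction F (FreeGroup ι) := MulAction.compHom _ j

theorem actN_cof [j.range.FiniteIndex] :
    ∃ B : Set (FreeGroup ι), B.Finite ∧ ∀ t, ∃ g : F, j g * t ∈ B := by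
  obtain ⟨B, hB, h⟩ := cof_sub (G := FreeGroup ι) (P := FreeGroup ι)
    ⟨{1}, Set.finite_singleton _, fun t => ⟨t⁻¹, by simp⟩⟩ j.range
  refine ⟨B, hB, fun t => ?_⟩
  obtain ⟨⟨_, g, rfl⟩, hg⟩ := h t
  exact ⟨g, hg⟩

variable (ρ : F →* (ps X ≃g ps X)) (hρ : ∀ f a, car (ρ f a) = (j f • ·) '' car a)

/-- the action of `W ⋊ F` on the vertices of the cube complex -/
@[reducible] def actD : MulAction (W (ps X) ⋊[autHom ρ] F) (W (ps X) × FreeGroup ι) :=
  letI := actN j; actW ρ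

theorem actD_def (g : W (ps X) ⋊[autHom ρ] F) (z : W (ps X) × FreeGroup ι) :
    letI := actD j ρ; g • z = (g.left * autHom ρ g.right z.1, j g.right * z.2) := rfl

include hρ in
theorem ts_smul (g : F) (a : PV X) (t : FreeGroup ι) (h : t ∈ Ts Tc a) : j g * t ∈ Ts Tc (ρ g a) :=
  fun s hs => by
    rw [hρ] at hs
    obtain ⟨v, hv, rfl⟩ := hs
    exact tc_smul _ _ _ (h v hv)

/-- the action on labels -/
def lab (g : W (ps X) ⋊[autHom ρ] F) : PV X ⊕ FreeGroup ι × ι → PV X ⊕ FreeGroup ι × ι :=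
  Sum.map (ρ g.right) fun e => (j g.right * e.1, e.2)

include hρ in
theorem actD_st (g : W (ps X) ⋊[autHom ρ] F) {y z : W (ps X) × FreeGroup ι}
    {a : PV X ⊕ FreeGroup ι × ι} (h : mst (ps X) (sr ι) (tg ι) (Ts Tc) y a z) :
    letI := actD j ρ; mst (ps X) (sr ι) (tg ι) (Ts Tc) (g • y) (lab j ρ g a) (g • z) := by
  let := actN j
  rcases a with a | e
  · exact actW_inl ρ (ts_smul j ρ hρ) g h
  · exact actW_inr ρ (μ := fun f e => (j f * e.1, e.2)) (fun _ _ => rfl)
      (fun _ _ => mul_assoc _ _ _) g h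

theorem actD_free (hj : Function.Injective j) (g : W (ps X) ⋊[autHom ρ] F)
    (z : W (ps X) × FreeGroup ι) (h : letI := actD j ρ; g • z = z) : g = 1 := by
  let := actN j
  exact actW_free ρ (fun f t e => hj (by simpa using mul_eq_right.1 e)) g z h

theorem actD_cof [j.range.FiniteIndex] : letI := actD j ρ
    ∃ C : Set (W (ps X) × FreeGroup ι), C.Finite ∧ ∀ z, ∃ g : W (ps X) ⋊[autHom ρ] F, g • z ∈ C := by
  let := actN j
  obtain ⟨B, hB, h⟩ := actN_cof j
  exact actW_cof ρ hB h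

include hX hρ in
/-- **`W (ps X) ⋊ F` is hyperbolic** -/
theorem hypD [Finite ι] [Finite I] [Finite Tor] (hj : Function.Injective j) [j.range.FiniteIndex] :
    IsHyperbolicGroup (W (ps X) ⋊[autHom ρ] F) := by
  let := actN j
  obtain ⟨B, hB, h⟩ := actN_cof j
  exact (mirD D hX).hyp (nsqD D hX) (clB_ps (cxD D hX)) ρ (ts_smul j ρ hρ)
    (fun g e => ⟨(j g * e.1, e.2), Or.inl ⟨rfl, (mul_assoc _ _ _).symm⟩⟩) ts_finite end_finite hB h 1
    ((Set.finite_singleton 1).subset fun g e => hj (by simpa using mul_eq_right.1 e))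

include hX hρ in
/-- **and so are its subgroups of finite index** -/
theorem hypG [Finite ι] [Finite I] [Finite Tor] (hj : Function.Injective j) [j.range.FiniteIndex]
    (G : Subgroup (W (ps X) ⋊[autHom ρ] F)) [G.FiniteIndex] : IsHyperbolicGroup G :=
  hyp_subgroup (hypD D hX j ρ hρ hj) G

include hX in
/-- the form of `Fill.sub` -/
theorem hyp_psHom [Finite ι] [Finite I] [Finite Tor] (hj : Function.Injective j)
    [j.range.FiniteIndex] (σ : F →* Equiv.Perm (St ι I Tor)) (hσ : ∀ f s, X s → X (σ f '' s))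
    (e : ∀ f s, σ f s = j f • s) : IsHyperbolicGroup (W (ps X) ⋊[autHom (psHom σ hσ)] F) :=
  hypD D hX j _ (fun f a => (car_psHom σ hσ f a).trans (Set.image_congr fun s _ => e f s)) hj

/-! ### subgroups of the free group -/

/-- the action of a subgroup on the vertices -/
abbrev sg (I Tor : Type) (H : Subgroup (FreeGroup ι)) : H →* Equiv.Perm (St ι I Tor) :=
  MulAction.toPermHom H (St ι I Tor)

include hX in
theorem sg_face (H : Subgroup (FreeGroup ι)) (f : H) (A : Set (St ι I Tor)) (h : X A) :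
    X (sg I Tor H f '' A) := face_smul D hX f A h

include hX in
theorem hyp_sg [Finite ι] [Finite I] [Finite Tor] (H : Subgroup (FreeGroup ι)) [H.FiniteIndex] :
    IsHyperbolicGroup (W (ps X) ⋊[autHom (psHom (sg I Tor H) (sg_face D hX H))] H) :=
  have : H.subtype.range.FiniteIndex := by rwa [H.range_subtype]
  hyp_psHom D hX H.subtype H.subtype_injective _ _ fun _ _ => rfl

include hX in
/-- the form of `Wu.s60_con` (`H = Gn χ 2`) -/
theorem hyp_res [Finite ι] [Finite I] [Finite Tor] (ρ : FreeGroup ι →* (ps X ≃g ps X))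
    (hρ : ∀ f a, car (ρ f a) = (f • ·) '' car a) (H : Subgroup (FreeGroup ι)) [H.FiniteIndex] :
    IsHyperbolicGroup (W (ps X) ⋊[autHom (ρ.comp H.subtype)] H) :=
  have : H.subtype.range.FiniteIndex := by rwa [H.range_subtype]
  hypD D hX H.subtype _ (fun f a => hρ f a) H.subtype_injective

/-- subgroups containing `χ⁻¹(nℤ)` have finite index -/
theorem fi_of_dvd {G : Type*} [Group G] (χ : G →* Multiplicative ℤ) {n : ℕ} (hn : n ≠ 0)
    (H : Subgroup G) (h : ∀ g, (n : ℤ) ∣ (χ g).toAdd → g ∈ H) : H.FiniteIndex := by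
  have : NeZero n := ⟨hn⟩
  let ψ : G →* Multiplicative (ZMod n) := (Int.castAddHom (ZMod n)).toMultiplicative.comp χ
  have := Subgroup.finiteIndex_ker ψ
  exact Subgroup.finiteIndex_of_le (H := ψ.ker) fun g hg =>
    h g ((ZMod.intCast_zmod_eq_zero_iff_dvd _ n).1 hg)

end Crest.Agent.N233.Hi

end
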