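import Crest.Agent.N233.Hi.Hy
import Crest.Agent.N233.Ou.Inst
import Crest.Agent.N233.Ou.Bi4
import Crest.Agent.N233.Ou.R2b
import Crest.Agent.N233.Rg.Fin
import Crest.Agent.N233.Lp.Abs

/-!
# Row 233 (helper25): `Out G` is finite
-/

set_option autoImplicit false

noncomputable section

namespace Crest.Agent.N233.Hi

open Crest.GroupTheory Crest.Agent.N255.Ra Crest.Agent.N255.Pt Crest.Agent.N233.Hyp
  Crest.Agent.N233.PS Crest.Agent.N233.Rg
open scoped Pointwise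

/-- **FIN**, abstract form -/
theorem fin_of_lab {A P G : Type} [DecidableEq A] {Γ : SimpleGraph A} {st : P → A → P → Prop}
    {φ : P → W Γ} [Group G] [MulAction G P] {B : Set P} (H : Lab Γ st φ) (hq : NoSq Γ) {d : ℕ}
    (hd : ClB Γ d) (C : Act st G B) (M : ∀ x, Lp.Psm Γ {a | ∃ y, st x a y})
    (ni : ∀ (g : G) x a y, st x a y → g • Hs φ x y ≠ Hs φ y x) (o : P) :
    (MulAut.conj : G →* MulAut G).range.FiniteIndex := by
  have fs : ∀ v : P, {g : G | g • v = v}.Finite := fun v =>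
    (Set.finite_singleton 1).subset fun g e => C.free g v e
  obtain ⟨S, hS, -⟩ := H.hyp hq hd C.hi C.hl C.fin C.cc o (fs o)
  have : Group.FG G := Group.fg_def.2 ⟨S, hS⟩
  obtain ⟨ι, σ, w, a, l⟩ := Ou.exists_ws H C.hi hq hd C.hl ni
  let := w.eact a
  exact fin_of_delzant H C (Lp.loc_of hq M) o fun x _ _ y e =>
    Ou.r2_sub H C.hi C.free C.hl C.fin C.cc (Lp.lk1_of M) (w.bic a l ⟨B, C.fin, C.cc⟩ fs ⟨o⟩) e

section par

variable {A P : Type} {Γ : SimpleGraph A} {st : P → A → P → Prop} {φ : P → W Γ} (H : Lab Γ st φ)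
  {x y u v : P} {a b : A} (e : st x a y)
include H e

theorem bd_ind {Q : P → Prop} (h0 : Q x) (hs : ∀ u c v, Q u → st u c v → Γ.Adj a c → Q v) {z : P}
    (hz : z ∈ bd st (Hs φ x y)) : Q z := by
  generalize hn : dl φ x z = n
  induction n generalizing z with
  | zero => exact H.eq_of_dl hn ▸ h0
  | succ n ih =>
    obtain ⟨w, ⟨c, s⟩, hw⟩ := Ou.exists_dn H e ⟨z, hz⟩ hn
    exact hs w c z (ih w.2 hw) (H.symm _ _ _ s) (Ou.bd_adj H e hz w.2 s)

open N255.Fa in
theorem par (e' : st u b v) (h : Hs φ u v = Hs φ x y) : a = b ∧ u ∈ bd st (Hs φ x y) := by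
  have hu := h ▸ self_mem H e'
  have hv := h ▸ not_mem H e'
  refine ⟨?_, hu, b, v, e', hv⟩
  rw [mem_Hs H e] at hu hv
  have r : hp φ x a = hp φ u b := by_contra fun n => hv ((sd_st H e' n).trans hu)
  exact Dv.eq_of_conj (Γ := Γ) (u := (φ x)⁻¹ * φ u) (by
    have : φ x * gen Γ a * (φ x)⁻¹ = φ u * gen Γ b * (φ u)⁻¹ := r
    calc _ = (φ u)⁻¹ * (φ x * gen Γ a * (φ x)⁻¹) * φ u := by group
      _ = _ := by rw [this]; group)

end par

/-- no element of `G` is conjugate to an element of the stabiliser of a wall that swaps its sides -/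
def NI {S F : Type} {Γ : SimpleGraph S} [Group F] {ρ : F →* (Γ ≃g Γ)}
    (G : Subgroup (W Γ ⋊[autHom ρ] F)) : Prop :=
  ∀ g ∈ G, g.right = 1 → ∀ v a, ∀ u ∈ WT Γ (Γ.neighborSet a), g.left ≠ v * (u * gen Γ a) * v⁻¹

variable {ι I Tor K : Type} [Finite ι] [Finite I] [Finite Tor] (D : Dt ι I Tor K)
  {X : Set (St ι I Tor) → Prop} (hX : ∀ A, X A ↔ D.Gt.IsClique A) {F : Type} [Group F]
  (j : F →* FreeGroup ι) (ρ : F →* (ps X ≃g ps X)) (hρ : ∀ f a, car (ρ f a) = (j f • ·) '' car a)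
  (hj : Function.Injective j) [j.range.FiniteIndex]
  (G : Subgroup (W (ps X) ⋊[autHom ρ] F)) [G.FiniteIndex]

include hρ hj in
theorem actD_act : letI := actD j ρ; ∃ B, Act (mst (ps X) (sr ι) (tg ι) (Ts Tc)) G B := by
  let := actD j ρ
  obtain ⟨B, hB, h⟩ := cof_sub (actD_cof j ρ) G
  exact ⟨B, fun g _ _ _ e => ⟨_, actD_st j ρ hρ g e⟩, mstD_finite,
    fun g x e => Subtype.ext (actD_free j ρ hj g x e), hB, h⟩

omit [Finite ι] [Finite I] [Finite Tor] [j.range.FiniteIndex] in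
include hX hρ hj in
/-- `F` acts freely on the vertices -/
theorem free_ps (f : F) (a : PV X) (h : ρ f a = a) : f = 1 := by
  obtain ⟨s, hs⟩ := car_nonempty a
  have h1 : j f • s ∈ car a := by rw [← h, hρ]; exact ⟨s, hs, rfl⟩
  have h2 : j f • s = s := by_contra fun n =>
    D.cl_ne ((hX _).1 (car_face a) h1 hs n) (D.cl_smul _ _)
  exact hj ((L.free _ _ h2).trans (map_one j).symm)

omit [Finite ι] [Finite I] [Finite Tor] [j.range.FiniteIndex] [G.FiniteIndex] in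
include hX hρ hj in
/-- **no inversion** -/
theorem niD (n : NI G) {φ : W (ps X) × FreeGroup ι → W (cone (ps X) (sr ι) (tg ι) (Ts Tc))}
    (H : Lab _ (mst (ps X) (sr ι) (tg ι) (Ts Tc)) φ) : letI := actD j ρ; ∀ g ∈ G, ∀ z a y,
      mst (ps X) (sr ι) (tg ι) (Ts Tc) z a y → g • Hs φ z y ≠ Hs φ y z := by
  let := actD j ρ
  intro g hg z a y e h
  rw [Ou.smul_Hs H fun g _ _ _ e => ⟨_, actD_st j ρ hρ g e⟩] at h
  have e' := H.symm _ _ _ e
  obtain ⟨h1, h2⟩ := par H e' (actD_st j ρ hρ g e) h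
  rcases a with s | d
  · have r := free_ps D hX j ρ hρ hj _ _ (Sum.inl.inj h1).symm
    obtain ⟨u, hu, k⟩ := bd_ind H e' (Q := fun w => ∃ u ∈ WT _ ((ps X).neighborSet s), w.1 = y.1 * u)
      ⟨1, one_mem _, (mul_one _).symm⟩ (by
        rintro w (c | c) w' ⟨u, hu, k⟩ m l
        · exact ⟨u * gen _ c, mul_mem hu (gen_mem_WT l), by rw [m.2, ← mul_assoc, ← k]⟩
        · exact ⟨u, hu, m.1.trans k⟩) h2
    refine n g hg r y.1 s u hu ?_
    rw [actD_def, r, map_one, MulAut.one_apply] at k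
    rw [eq_mul_inv_of_mul_eq k, e'.2]
    simp [mul_assoc]
  · have r : j g.right = 1 := mul_eq_right.1 (congrArg Prod.fst (Sum.inr.inj h1)).symm
    have k := bd_ind H e' (Q := fun w => w.2 = y.2) rfl (by
      rintro w (c | c) w' k m l
      · rw [m.2, k]
      · exact l.elim) h2
    obtain ⟨i, k', -⟩ := End.x e'.2
    rw [actD_def, r, one_mul, k'] at k
    exact x_ne_one i (mul_eq_left.1 k)

include hX hρ hj in
/-- **FIN** for the subdivided cover -/
theorem finD [DecidableEq (PV X ⊕ FreeGroup ι × ι)]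
    (M : ∀ z, Lp.Psm (cone (ps X) (sr ι) (tg ι) (Ts Tc))
      {a | ∃ y, mst (ps X) (sr ι) (tg ι) (Ts Tc) z a y}) (n : NI G) :
    (MulAut.conj : G →* MulAut G).range.FiniteIndex := by
  let := actD j ρ
  obtain ⟨φ, H⟩ := (mirD D hX).lab
  obtain ⟨B, C⟩ := actD_act j ρ hρ hj G
  exact fin_of_lab H (nsqD D hX) (clbD D hX) C M (fun g => niD D hX j ρ hρ hj G n H g g.2) (1, 1)

end Crest.Agent.N233.Hi

end
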